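import Vale.Agent.P354K.Unif

/-!
Block B9, EXT (helper93): from the coordinates z to the coordinates y of the cube.
-/

open scoped ContDiff
open MeasureTheory Set Filter Topology

namespace Vale.Agent.P354KE

open Vale.Agent.P354H (X3 e pd pdl Sb dif pd_sm pdl_sm)
open Vale.Agent.P354K

/-- The map to the cube and its inverse. -/
noncomputable def Fi (z : X3) : X3 := (yc 0 z, yc 1 z, yc 2 z)
noncomputable def Ps (y : X3) : X3 :=
  (Real.tan (co 0 y / 2), Real.tan (co 1 y / 2), Real.tan (co 2 y / 2))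

theorem co_Fi (i : Fin 3) (z : X3) : co i (Fi z) = yc i z := by fin_cases i <;> rfl

theorem co_Ps (i : Fin 3) (y : X3) : co i (Ps y) = Real.tan (co i y / 2) := by fin_cases i <;> rfl

theorem co_ext {z w : X3} (h : ∀ i, co i z = co i w) : z = w :=
  Prod.ext (h 0) (Prod.ext (h 1) (h 2))

theorem Fi_sm : ContDiff ℝ ∞ Fi := (yc_sm 0).prodMk ((yc_sm 1).prodMk (yc_sm 2))

theorem Fi_mem (z : X3) : Fi z ∈ cube := fun i => by
  rw [co_Fi, yc, abs_lt]
  constructor <;> linarith [Real.arctan_lt_pi_div_two (co i z), Real.neg_pi_div_two_lt_arctan (co i z)]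

theorem Ps_Fi (z : X3) : Ps (Fi z) = z := co_ext fun i => by
  rw [co_Ps, co_Fi, yc, mul_div_cancel_left₀ _ two_ne_zero, Real.tan_arctan]

theorem Fi_Ps {y : X3} (hy : y ∈ cube) : Fi (Ps y) = y := co_ext fun i => by
  have := abs_lt.1 (hy i)
  rw [co_Fi, yc, co_Ps, Real.arctan_tan (by linarith) (by linarith)]
  ring

theorem cos_pos {y : X3} (hy : y ∈ cube) (i : Fin 3) : 0 < Real.cos (co i y / 2) :=
  have := abs_lt.1 (hy i)
  Real.cos_pos_of_mem_Ioo ⟨by linarith, by linarith⟩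

theorem Ps_at {y : X3} (hy : y ∈ cube) : ContDiffAt ℝ ∞ Ps y :=
  have h : ∀ i, ContDiffAt ℝ ∞ (fun y => Real.tan (co i y / 2)) y := fun i =>
    ContDiffAt.comp (g := Real.tan) (f := fun y => co i y / 2) y
      (Real.contDiffAt_tan.2 (cos_pos hy i).ne') ((co_sm i).div_const 2).contDiffAt
  (h 0).prodMk ((h 1).prodMk (h 2))

theorem open_cube : IsOpen cube := by
  rw [cube, ofPred_forall]
  exact isOpen_iInter_of_finite fun i => isOpen_lt (co_sm i).continuous.abs continuous_const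

theorem cpt {K : Set X3} (hK : IsCompact K) (h : K ⊆ cube) : IsCompact (Fi ⁻¹' K) := by
  have : Fi ⁻¹' K = Ps '' K := ext fun z => ⟨fun hz => ⟨_, hz, Ps_Fi z⟩, by
    rintro ⟨y, hy, rfl⟩
    rwa [mem_preimage, Fi_Ps (h hy)]⟩
  rw [this]
  exact hK.image_of_continuousOn fun y hy => (Ps_at (h hy)).continuousAt.continuousWithinAt

theorem fd_Fi (j : Fin 3) (z : X3) : fderiv ℝ Fi z (e j) = (gz j z)⁻¹ • e j := by
  have h := fun i => (dif (yc_sm i) z).hasFDerivAt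
  have k := fun i => congrFun (pd_yc j i) z
  rw [show Fi = fun z => (yc 0 z, yc 1 z, yc 2 z) from rfl,
    ((h 0).prodMk ((h 1).prodMk (h 2))).fderiv]
  refine co_ext fun i => ?_
  rw [co_smul, co_e, show co i _ = pd j (yc i) z by fin_cases i <;> rfl, k]
  split_ifs with h
  · rw [h, mul_one]
  · rw [mul_zero]

theorem D_Fi (j : Fin 3) {f : X3 → ℝ} (hf : Sm f) : D j (f ∘ Fi) = pd j f ∘ Fi := by
  funext z
  rw [D, pd, fderiv_comp z (dif hf _) (dif Fi_sm z), ContinuousLinearMap.comp_apply, fd_Fi,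
    map_smul, smul_eq_mul, ← mul_assoc, mul_inv_cancel₀ (gz_pos j z).ne', one_mul]
  rfl

theorem Dl_Fi (α : List (Fin 3)) {f : X3 → ℝ} (hf : Sm f) : Dl α (f ∘ Fi) = pdl α f ∘ Fi := by
  induction α generalizing f with
  | nil => rfl
  | cons j α ih => rw [Dl, D_Fi j hf, ih (pd_sm j hf), pdl]

theorem pdl_in (α : List (Fin 3)) {f : X3 → ℝ} (hf : Sm f) {y : X3} (hy : y ∈ cube) :
    pdl α f y = Dl α (f ∘ Fi) (Ps y) := by rw [Dl_Fi α hf, Function.comp, Fi_Ps hy]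

/-- Extension by zero. -/
noncomputable def Ex (g : X3 → ℝ) : X3 → ℝ := cube.indicator (g ∘ Ps)

/-- Decay of all derivatives. -/
def Dc (g : X3 → ℝ) : Prop := Sm g ∧ ∀ α, ∃ c, ∀ z, |Dl α g z| * (1 + ‖z‖ ^ 2) ^ 1 ≤ c

theorem Dc.D {g : X3 → ℝ} (h : Dc g) (j : Fin 3) : Dc (D j g) :=
  ⟨D_sm j h.1, fun α => h.2 (j :: α)⟩

theorem Ex_Fi (g : X3 → ℝ) : Ex g ∘ Fi = g := by
  funext z
  rw [Function.comp, Ex, indicator_of_mem (Fi_mem z), Function.comp, Ps_Fi]

theorem Ex_out (g : X3 → ℝ) {y : X3} (hy : y ∉ cube) : Ex g y = 0 := indicator_of_notMem hy _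

theorem Ex_in (g : X3 → ℝ) {y : X3} (hy : y ∈ cube) : Ex g y = g (Ps y) := indicator_of_mem hy _

theorem Ex_sq {g : X3 → ℝ} (h : Dc g) {y : X3} (hy : y ∉ cube) :
    ∃ c, ∀ w, ‖Ex g w‖ ≤ c * ‖‖w - y‖ ^ 2‖ := by
  obtain ⟨c, hc⟩ := h.2 []
  have c0 : 0 ≤ c := le_trans (by positivity) (hc 0)
  obtain ⟨i, hi⟩ := not_forall.1 hy
  refine ⟨c, fun w => ?_⟩
  by_cases hw : w ∈ cube
  · have h1 := cos_pos hw i
    have h2 : Real.cos (co i w / 2) ≤ ‖w - y‖ := by
      have a1 := abs_co_le i (w - y)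
      have a2 : co i (w - y) = co i w - co i y := by fin_cases i <;> rfl
      have a3 := abs_sub_abs_le_abs_sub (co i y) (co i w)
      rw [a2, abs_sub_comm] at a1
      rw [← Real.cos_abs, ← Real.sin_pi_div_two_sub, abs_div, abs_two]
      exact (Real.sin_le (by linarith [hw i])).trans (by linarith [hw i, not_lt.1 hi])
    have h3 := hc (Ps w)
    have h4 : Real.tan (co i w / 2) ^ 2 ≤ ‖Ps w‖ ^ 2 := by
      rw [← co_Ps, ← sq_abs]
      exact pow_le_pow_left₀ (abs_nonneg _) (abs_co_le i _) 2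
    have h5 := Real.inv_one_add_tan_sq h1.ne'
    have h6 : 0 < 1 + Real.tan (co i w / 2) ^ 2 := by positivity
    rw [Ex_in g hw, Real.norm_eq_abs, Real.norm_of_nonneg (sq_nonneg _)]
    refine le_trans ?_ (mul_le_mul_of_nonneg_left (pow_le_pow_left₀ h1.le h2 2) c0)
    rw [← h5, ← div_eq_mul_inv, le_div_iff₀ h6]
    refine le_trans ?_ h3
    rw [pow_one]
    exact mul_le_mul_of_nonneg_left (by linarith) (abs_nonneg _)
  · rw [Ex_out g hw, norm_zero]
    positivity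

theorem clm_eq (L : X3 →L[ℝ] ℝ) : L = ∑ j, L (e j) • fderiv ℝ (co j) 0 := by
  have k : ∀ j i, fderiv ℝ (co j) 0 (e i) = if j = i then 1 else 0 := fun j i =>
    congrFun (pd_co i j) 0
  have : ∀ i, L (e i) = (∑ j, L (e j) • fderiv ℝ (co j) 0) (e i) := fun i => by simp [k]
  refine ContinuousLinearMap.ext fun v => ?_
  have hv : v = v.1 • e 0 + v.2.1 • e 1 + v.2.2 • e 2 := by simp [e]
  rw [hv]
  simp only [map_add, map_smul, ← this]

theorem Ex_fd {g : X3 → ℝ} (h : Dc g) (y : X3) :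
    DifferentiableAt ℝ (Ex g) y ∧ ∀ j, pd j (Ex g) y = Ex (D j g) y := by
  by_cases hy : y ∈ cube
  · have h1 : Ex g =ᶠ[𝓝 y] g ∘ Ps := by
      filter_upwards [open_cube.mem_nhds hy] with w hw using Ex_in g hw
    have h2 : DifferentiableAt ℝ (Ex g) y :=
      ((dif h.1 _).comp y ((Ps_at hy).differentiableAt (by simp))).congr_of_eventuallyEq h1
    refine ⟨h2, fun j => ?_⟩
    have h3 := fderiv_comp (Ps y) (g := Ex g) (by rwa [Fi_Ps hy]) (dif Fi_sm _)
    rw [Ex_in _ hy, D, pd, pd, ← congrArg (fderiv ℝ · (Ps y)) (Ex_Fi g), h3, Fi_Ps hy,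
      ContinuousLinearMap.comp_apply, fd_Fi, map_smul, smul_eq_mul, ← mul_assoc,
      mul_inv_cancel₀ (gz_pos j _).ne', one_mul]
  · obtain ⟨c, hc⟩ := Ex_sq h hy
    have h1 : HasFDerivAt (Ex g) (0 : X3 →L[ℝ] ℝ) y := by
      refine .of_isLittleO ?_
      simpa [Ex_out g hy] using (Asymptotics.IsBigO.of_bound c (.of_forall hc)).trans_isLittleO
        (Asymptotics.isLittleO_pow_sub_sub y one_lt_two)
    exact ⟨h1.differentiableAt, fun j => by rw [pd, h1.fderiv, Ex_out _ hy]; rfl⟩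

theorem pd_Ex {g : X3 → ℝ} (h : Dc g) (j : Fin 3) : pd j (Ex g) = Ex (D j g) :=
  funext fun y => (Ex_fd h y).2 j

theorem Ex_sm {g : X3 → ℝ} (h : Dc g) : Sm (Ex g) := by
  refine contDiff_infty.2 fun n => ?_
  induction n generalizing g with
  | zero => exact contDiff_zero.2 (Differentiable.continuous fun y => (Ex_fd h y).1)
  | succ n ih =>
    rw [Nat.cast_succ]
    refine contDiff_succ_iff_fderiv.2 ⟨fun y => (Ex_fd h y).1, by simp, ?_⟩
    have : fderiv ℝ (Ex g) = fun y => ∑ j, Ex (D j g) y • fderiv ℝ (co j) 0 := by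
      funext y
      rw [clm_eq (fderiv ℝ (Ex g) y)]
      exact Finset.sum_congr rfl fun j _ => by rw [← (Ex_fd h y).2 j, pd]
    rw [this]
    exact ContDiff.sum fun j _ => (ih (h.D j)).smul contDiff_const

theorem pdl_out (α : List (Fin 3)) {g : X3 → ℝ} (h : Dc g) {y : X3} (hy : y ∉ cube) :
    pdl α (Ex g) y = 0 := by
  induction α generalizing g with
  | nil => exact Ex_out g hy
  | cons j α ih => rw [pdl, pd_Ex h, ih (h.D j)]

theorem jet_Fi {j : Jt → X3 → ℝ} (h : Jet pd j) : Jet D fun x => j x ∘ Fi where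
  sm x := (h.sm x).comp Fi_sm
  hs a b := by rw [h.hs]
  ps a b := by rw [h.ps]
  dh i a b := by rw [D_Fi i (h.sm _), h.dh]
  ddh i k a b := by rw [D_Fi i (h.sm _), h.ddh]
  dp i a b := by rw [D_Fi i (h.sm _), h.dp]

theorem jet_Ex {j : Jt → X3 → ℝ} (h : Jet D j) (hd : ∀ x, Dc (j x)) :
    Jet pd fun x => Ex (j x) where
  sm x := Ex_sm (hd x)
  hs a b := by rw [h.hs]
  ps a b := by rw [h.ps]
  dh i a b := by rw [pd_Ex (hd _), h.dh]
  ddh i k a b := by rw [pd_Ex (hd _), h.ddh]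
  dp i a b := by rw [pd_Ex (hd _), h.dp]

theorem ud_Fi {P : Type} {c : P → X3 → ℝ} (h : ∀ r, Sm (c r))
    (hb : ∀ α, ∃ C, ∀ r, ∀ y ∈ cube, |pdl α (c r) y| ≤ C) : UD fun r => c r ∘ Fi :=
  ⟨fun r => (h r).comp Fi_sm, fun α => (hb α).imp fun C hC r z => by
    rw [Dl_Fi α (h r)]
    exact hC r _ (Fi_mem z)⟩

theorem ext (hZ : COREZ) : COREY := by
  intro B hB P l jb K0 K js jT χ π lam m hj hb hp hc k0 k s0 s w hn hπ hs h0 h1 hl
  obtain ⟨M, C, H⟩ := hZ B hB P l (fun r x => jb r x ∘ Fi) (Fi ⁻¹' K0) (Fi ⁻¹' K)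
    (fun x => js x ∘ Fi) (fun x => jT x ∘ Fi) (χ ∘ Fi) (fun r z => π r (Fi z)) lam m
    ⟨fun r => jet_Fi (hj r), fun x => ud_Fi (fun r => (hj r).sm x) (hb x),
      hp.imp fun c h => ⟨h.1, fun r z => h.2 r _ (Fi_mem z)⟩⟩
    (fun r k z => hc r k _ (Fi_mem z)) (cpt k0 s0) (cpt k s)
    ⟨jet_Fi w.s, jet_Fi w.T, fun a z => w.pos a _, fun z => w.det _, fun a b z => w.h0 a b _,
      fun z => w.supp _, w.sm.comp Fi_sm, w.ne.elim fun y hy => ⟨Ps y, by
        rwa [Function.comp, Fi_Ps (s (by_contra fun h => hy (w.supp y h).1))]⟩,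
      fun a z => w.div a _, fun z => w.sign _⟩
    (fun η hη => (hn η hη).mono fun r h x z hz => h x _ hz)
    (fun b c => ⟨(ud_Fi (hπ b c).1.1 fun α => ((hπ b c).1.2 α.length).imp
      fun C h r y _ => h r α le_rfl y).ub, fun r z => (hπ b c).2 r _⟩)
    (fun r z => hs r _) (fun r z => h0 r _) h1 hl
  refine ⟨M, C, H.mono fun r ⟨j, a1, a2, a3, a4⟩ => ?_⟩
  have hd : ∀ x, Dc (j x) := fun x => ⟨a1.sm x, fun α => a3 x α 1⟩
  have l0 : 0 < lam r := one_pos.trans_le (h1 r)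
  have c1 : 0 ≤ C / lam r := (abs_nonneg _).trans ((a4 [] (Nat.zero_le _) 0).1 (.h 0 0))
  have c0 : 0 ≤ C := by simpa [l0.ne'] using mul_nonneg c1 l0.le
  refine ⟨fun x => Ex (j x), jet_Ex a1 hd, fun k y hy => ?_, fun x y => Ex_out _,
    fun α hα y => ?_⟩
  · convert a2 k (Ps y) using 3 <;> funext x
    · rw [at', at', Function.comp, Fi_Ps hy]
    · exact Ex_in _ hy
  · have sπ : ∀ a b, Sm fun y => π r y a b * Real.cos (lam r * y.1) / lam r ^ M := fun a b =>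
      (((hπ a b).1.1 r).mul (contDiff_const.mul contDiff_fst).cos).div_const _
    by_cases hy : y ∈ cube
    · have e : ∀ x, pdl α (Ex (j x)) y = Dl α (j x) (Ps y) := fun x => by
        rw [pdl_in α (Ex_sm (hd x)) hy, Ex_Fi]
      obtain ⟨b1, b2⟩ := a4 α hα (Ps y)
      refine ⟨fun x => e x ▸ b1 x, fun hk a b => ?_⟩
      obtain ⟨b3, b4⟩ := b2 (by rwa [mem_preimage, Fi_Ps hy]) a b
      refine ⟨e _ ▸ b3, ?_⟩
      rw [pdl_in α ((Ex_sm (hd _)).sub (sπ a b)) hy]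
      convert b4 using 3
      funext z
      exact congrArg (· - _) (congrFun (Ex_Fi _) z)
    · refine ⟨fun x => by rwa [pdl_out α (hd x) hy, abs_zero], fun _ a b => ⟨?_, ?_⟩⟩
      · rw [pdl_out α (hd _) hy, abs_zero]
        positivity
      · rw [pdl_sub' α (Ex_sm (hd _)) (sπ a b)]
        simp only
        rw [pdl_out α (hd _) hy, pdl_supp α k0.isClosed (fun z hz => by
          rw [show π r z a b = 0 from (hπ a b).2 r z hz, zero_mul, zero_div]) y fun h => hy (s0 h), sub_zero, abs_zero]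
        positivity

end Vale.Agent.P354KE
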